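import Vale.Agent.P123.Main

open Polynomial

namespace Vale.Agent.Results.P123.RotationInvariant

/-- Crouzeix-type inequality with constant `2` for the polynomials `a (z - z₀) ^ n + c`:
if the numerical range of `A` lies in a convex set `K` that is invariant under the rotation by
`2 π / n` about `z₀`, then the numerical radius of `P(A)` is at most `sup_K |P|` and
`‖P(A)‖ ≤ 2 sup_K |P|`. -/
theorem result {H : Type*} [NormedAddCommGroup H] [InnerProductSpace ℂ H] [CompleteSpace H]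
    [Nontrivial H] (A : H →L[ℂ] H) (n : ℕ) (hn : 0 < n) (K : Set ℂ) (z₀ a c : ℂ) (M : ℝ)
    (hKconv : Convex ℝ K)
    (hKrot : ∀ z ∈ K, z₀ + Complex.exp (2 * Real.pi * Complex.I / n) * (z - z₀) ∈ K)
    (hW : ∀ x : H, ‖x‖ = 1 → inner ℂ x (A x) ∈ K)
    (hM : ∀ z ∈ K, ‖(C a * (X - C z₀) ^ n + C c).eval z‖ ≤ M) :
    (∀ x : H, ‖x‖ = 1 → ‖inner ℂ x (aeval A (C a * (X - C z₀) ^ n + C c) x)‖ ≤ M) ∧
      ‖aeval A (C a * (X - C z₀) ^ n + C c)‖ ≤ 2 * M := by
  have hω := Complex.isPrimitiveRoot_exp n hn.ne'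
  set ω : ℂ := Complex.exp (2 * Real.pi * Complex.I / n) with hωdef
  set B : H →L[ℂ] H := A - algebraMap ℂ (H →L[ℂ] H) z₀ with hB
  have hP : aeval A (C a * (X - C z₀) ^ n + C c)
      = a • B ^ n + c • (1 : H →L[ℂ] H) := by
    rw [map_add, map_mul, map_pow, map_sub, aeval_X, aeval_C, aeval_C, aeval_C, ← hB,
      Algebra.algebraMap_eq_smul_one, Algebra.algebraMap_eq_smul_one, smul_mul_assoc, one_mul]
  set K₀ : Set ℂ := (fun z => z + z₀) ⁻¹' K with hK₀
  have hK₀conv : Convex ℝ K₀ := hKconv.translate_preimage_left z₀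
  have hW₀ : ∀ x : H, ‖x‖ = 1 → inner ℂ x (B x) ∈ K₀ := by
    intro x hx
    have : inner ℂ x (B x) + z₀ = inner ℂ x (A x) := by
      simp [hB, Algebra.algebraMap_eq_smul_one, hx]
    change inner ℂ x (B x) + z₀ ∈ K
    rw [this]
    exact hW x hx
  have hrot₀ : ∀ z ∈ K₀, ω * z ∈ K₀ := by
    intro z hz
    have := hKrot (z + z₀) hz
    change ω * z + z₀ ∈ K
    have e : z₀ + ω * (z + z₀ - z₀) = ω * z + z₀ := by ring
    rwa [e] at this
  have hM₀ : ∀ z ∈ K₀, ‖a * z ^ n + c‖ ≤ M := by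
    intro z hz
    have := hM (z + z₀) hz
    simpa using this
  have hnum : ∀ x : H, ‖x‖ = 1 →
      ‖inner ℂ x (aeval A (C a * (X - C z₀) ^ n + C c) x)‖ ≤ M := by
    intro x hx
    have h := Vale.Agent.P123.numrange_bound_general hn hω B K₀ hK₀conv hW₀ hrot₀ a c M hM₀ x hx
    have e : inner ℂ x (aeval A (C a * (X - C z₀) ^ n + C c) x)
        = a * inner ℂ x ((B ^ n) x) + c := by
      rw [hP]
      simp [hx]
    rwa [e]
  refine ⟨hnum, ?_⟩
  obtain ⟨x, hx⟩ := exists_norm_eq H (zero_le_one)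
  have hM0 : 0 ≤ M := (norm_nonneg _).trans (hnum x hx)
  exact Vale.Agent.P123.norm_le_two_mul _ M hM0 hnum

end Vale.Agent.Results.P123.RotationInvariant
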