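import Vale.Agent.P123.Main
import Vale.Agent.P123.ToeplitzHausdorff
import Vale.Agent.Results.P123.RotationInvariant

open Polynomial

namespace Vale.Agent.Results.P123.BothForms

/-- Crouzeix's inequality with the conjectured constant `2` for `P = a (z - z₀) ^ n + c`,
in both forms.  `⟨A x, x⟩` is `inner ℂ x (A x)`.
(1) If `K ⊇ W(A)` is convex and invariant under the rotation by `2 π / n` about `z₀` and
`|P| ≤ M` on `K`, then the numerical radius of `P(A)` is at most `M` and `‖P(A)‖ ≤ 2 M`.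
(2) If `W(A)` itself is invariant under that rotation, then `{|P(z)| : z ∈ W(A)}` is nonempty and
bounded above, the numerical radius of `P(A)` is at most its supremum, and
`‖P(A)‖ ≤ 2 sup_{z ∈ W(A)} |P(z)|`. -/
theorem result {H : Type*} [NormedAddCommGroup H] [InnerProductSpace ℂ H] [CompleteSpace H]
    [Nontrivial H] (A : H →L[ℂ] H) (n : ℕ) (hn : 0 < n) (z₀ a c : ℂ) :
    (∀ (K : Set ℂ) (M : ℝ), Convex ℝ K →
      (∀ z ∈ K, z₀ + Complex.exp (2 * Real.pi * Complex.I / n) * (z - z₀) ∈ K) →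
      (∀ x : H, ‖x‖ = 1 → inner ℂ x (A x) ∈ K) →
      (∀ z ∈ K, ‖(C a * (X - C z₀) ^ n + C c).eval z‖ ≤ M) →
      (∀ x : H, ‖x‖ = 1 → ‖inner ℂ x (aeval A (C a * (X - C z₀) ^ n + C c) x)‖ ≤ M) ∧
        ‖aeval A (C a * (X - C z₀) ^ n + C c)‖ ≤ 2 * M) ∧
    ((∀ x : H, ‖x‖ = 1 → ∃ y : H, ‖y‖ = 1 ∧
        inner ℂ y (A y) = z₀ + Complex.exp (2 * Real.pi * Complex.I / n) * (inner ℂ x (A x) - z₀)) →
      {r : ℝ | ∃ x : H, ‖x‖ = 1 ∧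
        r = ‖(C a * (X - C z₀) ^ n + C c).eval (inner ℂ x (A x))‖}.Nonempty ∧
      BddAbove {r : ℝ | ∃ x : H, ‖x‖ = 1 ∧
        r = ‖(C a * (X - C z₀) ^ n + C c).eval (inner ℂ x (A x))‖} ∧
      (∀ x : H, ‖x‖ = 1 → ‖inner ℂ x (aeval A (C a * (X - C z₀) ^ n + C c) x)‖ ≤
        sSup {r : ℝ | ∃ x : H, ‖x‖ = 1 ∧
          r = ‖(C a * (X - C z₀) ^ n + C c).eval (inner ℂ x (A x))‖}) ∧
      ‖aeval A (C a * (X - C z₀) ^ n + C c)‖ ≤
        2 * sSup {r : ℝ | ∃ x : H, ‖x‖ = 1 ∧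
          r = ‖(C a * (X - C z₀) ^ n + C c).eval (inner ℂ x (A x))‖}) := by
  refine ⟨fun K M hK hrot hW hM =>
    Vale.Agent.Results.P123.RotationInvariant.result A n hn K z₀ a c M hK hrot hW hM, ?_⟩
  intro hrot
  set V : Set ℝ := {r : ℝ | ∃ x : H, ‖x‖ = 1 ∧
        r = ‖(C a * (X - C z₀) ^ n + C c).eval (inner ℂ x (A x))‖} with hV
  have hne : V.Nonempty := by
    obtain ⟨x, hx⟩ := exists_norm_eq H (zero_le_one)
    exact ⟨_, x, hx, rfl⟩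
  have hbdd : BddAbove V := by
    refine ⟨‖a‖ * (‖A‖ + ‖z₀‖) ^ n + ‖c‖, ?_⟩
    rintro r ⟨x, hx, rfl⟩
    have h1 : ‖inner ℂ x (A x)‖ ≤ ‖A‖ := by
      calc ‖inner ℂ x (A x)‖ ≤ ‖x‖ * ‖A x‖ := norm_inner_le_norm _ _
        _ ≤ ‖x‖ * (‖A‖ * ‖x‖) := by gcongr; exact A.le_opNorm x
        _ = ‖A‖ := by rw [hx]; ring
    have h2 : ‖inner ℂ x (A x) - z₀‖ ≤ ‖A‖ + ‖z₀‖ :=
      (norm_sub_le _ _).trans (by gcongr)
    have e : (C a * (X - C z₀) ^ n + C c).eval (inner ℂ x (A x))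
        = a * (inner ℂ x (A x) - z₀) ^ n + c := by simp
    rw [e]
    calc ‖a * (inner ℂ x (A x) - z₀) ^ n + c‖
        ≤ ‖a * (inner ℂ x (A x) - z₀) ^ n‖ + ‖c‖ := norm_add_le _ _
      _ = ‖a‖ * ‖inner ℂ x (A x) - z₀‖ ^ n + ‖c‖ := by rw [norm_mul, norm_pow]
      _ ≤ ‖a‖ * (‖A‖ + ‖z₀‖) ^ n + ‖c‖ := by gcongr
  have key := Vale.Agent.Results.P123.RotationInvariant.result A n hn
    {w : ℂ | ∃ x : H, ‖x‖ = 1 ∧ inner ℂ x (A x) = w} z₀ a c (sSup V)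
    (Vale.Agent.P123.convex_numRange A)
    (by rintro z ⟨x, hx, rfl⟩; exact hrot x hx)
    (fun x hx => ⟨x, hx, rfl⟩)
    (by rintro z ⟨x, hx, rfl⟩; exact le_csSup hbdd ⟨x, hx, rfl⟩)
  exact ⟨hne, hbdd, key.1, key.2⟩

end Vale.Agent.Results.P123.BothForms
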