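import Vale.Agent.P123.Main
import Vale.Agent.P123.ToeplitzHausdorff
import Vale.Agent.Results.P123.RotationInvariant

open Polynomial

namespace Vale.Agent.Results.P123.SymmetricRange

/-- Crouzeix's inequality `‖P(A)‖ ≤ 2 sup_{W(A)} |P|` for `P = a (z - z₀) ^ n + c`, for every
bounded operator `A` whose numerical range `W(A)` is invariant under the rotation by `2 π / n`
about `z₀`. -/
theorem result {H : Type*} [NormedAddCommGroup H] [InnerProductSpace ℂ H] [CompleteSpace H]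
    [Nontrivial H] (A : H →L[ℂ] H) (n : ℕ) (hn : 0 < n) (z₀ a c : ℂ) (M : ℝ)
    (hrot : ∀ x : H, ‖x‖ = 1 → ∃ y : H, ‖y‖ = 1 ∧
      inner ℂ y (A y) = z₀ + Complex.exp (2 * Real.pi * Complex.I / n) * (inner ℂ x (A x) - z₀))
    (hM : ∀ x : H, ‖x‖ = 1 → ‖(C a * (X - C z₀) ^ n + C c).eval (inner ℂ x (A x))‖ ≤ M) :
    ‖aeval A (C a * (X - C z₀) ^ n + C c)‖ ≤ 2 * M := by
  refine (Vale.Agent.Results.P123.RotationInvariant.result A n hn
    {w : ℂ | ∃ x : H, ‖x‖ = 1 ∧ inner ℂ x (A x) = w} z₀ a c M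
    (Vale.Agent.P123.convex_numRange A) ?_ (fun x hx => ⟨x, hx, rfl⟩) ?_).2
  · rintro z ⟨x, hx, rfl⟩
    exact hrot x hx
  · rintro z ⟨x, hx, rfl⟩
    exact hM x hx

end Vale.Agent.Results.P123.SymmetricRange
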